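/-!
# Row 227 (S0351): invariant primes of the Lubin–Tate ring (Chai's hope)

Files (each imports only earlier ones; fill the gaps in place, do not change statements; add
auxiliary lemmas freely, preferably in new files `R227/<Name>Aux.lean` or in a private namespace):

* `Ev` evaluation of power series (`ev`, `hom_ext`), `Pt` groups of points / homomorphisms,
  `FG` Frobenius, invariant differential, rigidity, `theta0`; `Nrm` points in the unit disc of `C`.
* `Normal` Honda normal form, `Exp` p-typical expansions, `NormL` normalisation lemma,
  `Trop` tropical lemma, `Rel` no relation `∑ d_i Φ(b y_i) = 0`.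
* `Dens`, `Subgp` Frobenius independence, formal subgroups.
* `Data`, `Tors`, `Bott`, `CP`, `ST`, `CharP` : the characteristic `p` case.  A point `u` of
  `V(P)` of height `h`; `1 + p^m b` moves `u` to the point with Serre–Tate coordinates
  `Φ(b y_i)^(P^m)`; so a nonzero `f ∈ P` gives a nonzero series over `𝔽_P` vanishing on the group
  `{(Φ(b y_i))_i}`, hence a linear relation, which is impossible.
* `Log`, `C0` : characteristic zero (`log ∘ lift(b)` spans `≥ n` dimensions mod bounded series).
* `LT`, `Height`, `Glue`, `Main` : Lubin–Tate theory from the universal property, assembly.
-/
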